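import Vale.Agent.P296.Statement

/-!
# An ample line bundle from an embedding in projective space

A map to projective space given in an open cover by nowhere zero holomorphic tuples, proportional
on the overlaps, defines a line bundle with these tuples as sections of `O(1)`. If the map is
injective and immersive the bundle is ample.
-/

noncomputable section
namespace Vale.Agent.P296.Proj
open scoped Manifold ContDiff
open Matrix

variable {n : ℕ} (X : Type) [TopologicalSpace X] [ChartedSpace (Cn n) X]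

/-- A map to projective space, in local homogeneous coordinates. -/
structure ProjMap (N : ℕ) where
  ι : Type
  U : ι → Set X
  isOpen_U : ∀ a, IsOpen (U a)
  indexAt : X → ι
  mem_at : ∀ x, x ∈ U (indexAt x)
  Φ : ι → X → Fin N → ℂ
  hol : ∀ a, ContMDiffOn 𝓘(ℂ, Cn n) 𝓘(ℂ, Fin N → ℂ) ω (Φ a) (U a)
  ne_zero : ∀ a, ∀ x ∈ U a, Φ a x ≠ 0
  prop : ∀ a b, ∀ x ∈ U a ∩ U b, ∃ t : ℂ, Φ b x = t • Φ a x

variable {X} {N : ℕ} (f : ProjMap (n := n) X N)

open scoped Classical in
/-- The ratio of the coordinates in two frames. -/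
def ProjMap.ratio (a b : f.ι) (x : X) : ℂ :=
  if h : x ∈ f.U a ∩ f.U b then (f.prop a b x h).choose else 0

lemma ProjMap.ratio_spec {a b : f.ι} {x : X} (h : x ∈ f.U a ∩ f.U b) :
    f.Φ b x = f.ratio a b x • f.Φ a x := by
  rw [ProjMap.ratio, dif_pos h]
  exact (f.prop a b x h).choose_spec

lemma ProjMap.ratio_eq {a b : f.ι} {x : X} (h : x ∈ f.U a ∩ f.U b) {t : ℂ}
    (ht : f.Φ b x = t • f.Φ a x) : f.ratio a b x = t :=
  smul_left_injective ℂ (f.ne_zero a x h.1) ((f.ratio_spec h).symm.trans ht)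

lemma ProjMap.contMDiffOn_ratio (a b : f.ι) :
    ContMDiffOn 𝓘(ℂ, Cn n) 𝓘(ℂ, ℂ) ω (f.ratio a b) (f.U a ∩ f.U b) := by
  intro x hx
  obtain ⟨k, hk⟩ : ∃ k, f.Φ a x k ≠ 0 := Function.ne_iff.1 (f.ne_zero a x hx.1)
  have ha := contMDiffOn_pi_space.1 ((f.hol a).mono (Set.inter_subset_left (t := f.U b))) k x hx
  have hb := contMDiffOn_pi_space.1 ((f.hol b).mono (Set.inter_subset_right (s := f.U a))) k x hx
  refine (hb.div₀ ha hk).congr_of_eventuallyEq ?_ ?_
  · filter_upwards [self_mem_nhdsWithin, ha.continuousWithinAt.eventually_ne hk] with y hy hy0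
    show f.ratio a b y = f.Φ b y k / f.Φ a y k
    rw [f.ratio_spec hy, Pi.smul_apply, smul_eq_mul, mul_div_cancel_right₀ _ hy0]
  · show f.ratio a b x = f.Φ b x k / f.Φ a x k
    rw [f.ratio_spec hx, Pi.smul_apply, smul_eq_mul, mul_div_cancel_right₀ _ hk]

lemma ProjMap.contMDiffOn_change (a b : f.ι) :
    ContMDiffOn 𝓘(ℂ, Cn n) 𝓘(ℂ, Cn 1 →L[ℂ] Cn 1) ω
      (fun x => f.ratio a b x • ContinuousLinearMap.id ℂ (Cn 1)) (f.U a ∩ f.U b) :=
  (f.contMDiffOn_ratio a b).smul contMDiffOn_const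

/-- The line bundle whose sections include the coordinates. -/
def ProjMap.bundle : HolBundle n 1 X where
  ι := f.ι
  core :=
    { baseSet := f.U
      isOpen_baseSet := f.isOpen_U
      indexAt := f.indexAt
      mem_baseSet_at := f.mem_at
      coordChange := fun a b x => f.ratio a b x • ContinuousLinearMap.id ℂ (Cn 1)
      coordChange_self := fun a x hx v => by
        rw [f.ratio_eq (a := a) (b := a) ⟨hx, hx⟩ (t := 1) (one_smul ℂ _).symm]
        simp
      continuousOn_coordChange := fun a b => (f.contMDiffOn_change a b).continuousOn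
      coordChange_comp := fun a b c x hx v => by
        have h : f.ratio a c x = f.ratio b c x * f.ratio a b x := f.ratio_eq ⟨hx.1.1, hx.2⟩ (by
          rw [f.ratio_spec ⟨hx.1.2, hx.2⟩, f.ratio_spec hx.1, smul_smul])
        simp [h, smul_smul, mul_comm] }
  hol := ⟨fun a b => f.contMDiffOn_change a b⟩

lemma ProjMap.g_apply (a b : f.ι) (x : X) : f.bundle.g a b x = f.ratio a b x • (1 : Matrix _ _ ℂ) := by
  ext i j
  fin_cases i; fin_cases j
  simp [ProjMap.bundle, HolBundle.g]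

/-- The coordinates as sections of `O(1)`. -/
def ProjMap.section' [IsManifold 𝓘(ℂ, Cn n) ω X] (k : Fin N) : SymSection f.bundle 1 where
  P a x η := η 0 * f.Φ a x k
  homog a x _ := ⟨MvPolynomial.C (f.Φ a x k) * MvPolynomial.X 0,
    (MvPolynomial.isHomogeneous_X ℂ 0).C_mul _, fun η => by simp [mul_comm]⟩
  compat a b x hx η := by
    erw [f.g_apply]
    erw [f.ratio_spec hx]
    simp [Matrix.vecMul_smul]
    ring
  hol a p := by
    have h1 : ContMDiffOn 𝓘(ℂ, Cn n) 𝓘(ℂ, Fin N → ℂ) ω (f.Φ a ∘ (chartAt (Cn n) p).symm)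
        ((chartAt (Cn n) p).target ∩ (chartAt (Cn n) p).symm ⁻¹' f.U a) :=
      (f.hol a).comp (contMDiffOn_chart_symm.mono Set.inter_subset_left) Set.inter_subset_right
    have h2 := differentiableOn_pi.1 ((contMDiffOn_iff_contDiffOn.1 h1).differentiableOn (by simp)) k
    have h3 : DifferentiableOn ℂ (fun w : Cn n × (Fin 1 → ℂ) => w.2 0)
        (((chartAt (Cn n) p).target ∩ (chartAt (Cn n) p).symm ⁻¹' f.U a) ×ˢ Set.univ) := by fun_prop
    exact h3.mul (h2.comp differentiableOn_fst fun w hw => hw.1)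

/-- The immersion condition in one frame at each point gives it in all frames. -/
theorem ProjMap.imm_of_indexAt [IsManifold 𝓘(ℂ, Cn n) ω X]
    (h : ∀ x, ∀ (ξ : Cn n) (t : ℂ), fderiv ℂ (f.Φ (f.indexAt x) ∘ (chartAt (Cn n) x).symm)
      (chartAt (Cn n) x x) ξ = t • f.Φ (f.indexAt x) x → ξ = 0) :
    ∀ a, ∀ x ∈ f.U a, ∀ (ξ : Cn n) (t : ℂ),
      fderiv ℂ (f.Φ a ∘ (chartAt (Cn n) x).symm) (chartAt (Cn n) x x) ξ = t • f.Φ a x → ξ = 0 := by
  intro a x hx ξ t ht
  set e := chartAt (Cn n) x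
  set b := f.indexAt x
  have hxb := f.mem_at x
  have hy : e.symm (e x) = x := e.left_inv (mem_chart_source _ x)
  have hmem : e.target ∩ e.symm ⁻¹' (f.U b ∩ f.U a) ∈ nhds (e x) := by
    refine (e.isOpen_inter_preimage_symm ((f.isOpen_U b).inter (f.isOpen_U a))).mem_nhds
      ⟨e.map_source (mem_chart_source _ x), ?_⟩
    rw [Set.mem_preimage, hy]
    exact ⟨hxb, hx⟩
  have hd : ∀ {E : Type} [NormedAddCommGroup E] [NormedSpace ℂ E] {φ : X → E},
      ContMDiffOn 𝓘(ℂ, Cn n) 𝓘(ℂ, E) ω φ (f.U b ∩ f.U a) → DifferentiableAt ℂ (φ ∘ e.symm) (e x) :=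
    fun hφ => ((contMDiffOn_iff_contDiffOn.1 (hφ.comp (contMDiffOn_chart_symm.mono
      Set.inter_subset_left) Set.inter_subset_right)).differentiableOn (by simp)).differentiableAt
        hmem
  have hr := hd (f.contMDiffOn_ratio b a)
  have hb := hd ((f.hol b).mono Set.inter_subset_left)
  have hev : (f.Φ a ∘ e.symm) =ᶠ[nhds (e x)]
      fun y => (f.ratio b a ∘ e.symm) y • (f.Φ b ∘ e.symm) y :=
    Filter.eventually_of_mem hmem fun y hy' => f.ratio_spec hy'.2
  rw [hev.fderiv_eq, (hr.hasFDerivAt.fun_smul hb.hasFDerivAt).fderiv] at ht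
  simp only [_root_.add_apply, _root_.smul_apply, ContinuousLinearMap.smulRight_apply,
    Function.comp_apply, hy, f.ratio_spec ⟨hxb, hx⟩, smul_smul] at ht
  have hne : f.ratio b a x ≠ 0 := fun h0 => f.ne_zero a x hx (by
    rw [f.ratio_spec ⟨hxb, hx⟩, h0, zero_smul])
  refine h x ξ ((t * f.ratio b a x - fderiv ℂ (f.ratio b a ∘ e.symm) (e x) ξ) / f.ratio b a x)
    (funext fun k => ?_)
  have hk := congrFun ht k
  simp only [Pi.add_apply, Pi.smul_apply, smul_eq_mul] at hk ⊢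
  field_simp
  linear_combination hk

/-- The bundle of an injective immersion is ample. -/
theorem ProjMap.ample [IsManifold 𝓘(ℂ, Cn n) ω X]
    (hinj : ∀ a b, ∀ x ∈ f.U a, ∀ y ∈ f.U b, ∀ t : ℂ, f.Φ b y = t • f.Φ a x → x = y)
    (himm : ∀ a, ∀ x ∈ f.U a, ∀ (ξ : Cn n) (t : ℂ),
      fderiv ℂ (f.Φ a ∘ (chartAt (Cn n) x).symm) (chartAt (Cn n) x x) ξ = t • f.Φ a x → ξ = 0) :
    Ample f.bundle := by
  have line : ∀ {η ζ : Fin 1 → ℂ}, η ≠ 0 → ∃ t : ℂ, ζ = t • η := fun {η ζ} hη => by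
    have h0 : η 0 ≠ 0 := fun h => hη (funext fun i => by fin_cases i; simpa using h)
    exact ⟨ζ 0 / η 0, funext fun i => by fin_cases i; simp [div_mul_cancel₀ _ h0]⟩
  have h0 : ∀ {η : Fin 1 → ℂ}, η ≠ 0 → η 0 ≠ 0 := fun {η} hη h =>
    hη (funext fun i => by fin_cases i; simpa using h)
  refine ⟨1, N, f.section', one_pos, fun a x hx η hη => ?_, fun a b x hx y hy η ζ hη hζ c hc => ?_,
    fun a x hx η hη ξ ν c hc => ?_⟩
  · obtain ⟨k, hk⟩ := Function.ne_iff.1 (f.ne_zero a x hx)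
    exact ⟨k, mul_ne_zero (h0 hη) hk⟩
  · refine ⟨hinj a b x hx y hy (c * η 0 / ζ 0) (funext fun k => ?_), line hη⟩
    have := hc k
    simp only [ProjMap.section'] at this
    have h1 : ζ 0 * f.Φ b y k = c * (η 0 * f.Φ a x k) := hc k
    have := h0 hζ
    simp only [Pi.smul_apply, smul_eq_mul]
    field_simp
    linear_combination h1
  · refine ⟨himm a x hx ξ ((c * η 0 - ν 0) / η 0) (funext fun k => ?_), line hη⟩
    set e := chartAt (Cn n) x
    have h1 : ContMDiffOn 𝓘(ℂ, Cn n) 𝓘(ℂ, Fin N → ℂ) ω (f.Φ a ∘ e.symm)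
        (e.target ∩ e.symm ⁻¹' f.U a) :=
      (f.hol a).comp (contMDiffOn_chart_symm.mono Set.inter_subset_left) Set.inter_subset_right
    have hmem : e.target ∩ e.symm ⁻¹' f.U a ∈ nhds (e x) := by
      refine (e.isOpen_inter_preimage_symm (f.isOpen_U a)).mem_nhds
        ⟨e.map_source (mem_chart_source _ x), ?_⟩
      rwa [Set.mem_preimage, e.left_inv (mem_chart_source _ x)]
    have hd : DifferentiableAt ℂ (f.Φ a ∘ e.symm) (e x) :=
      ((contMDiffOn_iff_contDiffOn.1 h1).differentiableOn (by simp)).differentiableAt hmem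
    have hk := (hasFDerivAt_pi'.1 hd.hasFDerivAt k)
    have hA : HasFDerivAt (fun w : Cn n × (Fin 1 → ℂ) => w.2 0) _ (e x, η) :=
      ((ContinuousLinearMap.proj (R := ℂ) (φ := fun _ : Fin 1 => ℂ) 0).comp
        (ContinuousLinearMap.snd ℂ (Cn n) (Fin 1 → ℂ))).hasFDerivAt
    have hB : HasFDerivAt (fun w : Cn n × (Fin 1 → ℂ) => (f.Φ a ∘ e.symm) w.1 k) _ (e x, η) :=
      hk.comp (g := fun z => (f.Φ a ∘ e.symm) z k) (e x, η) hasFDerivAt_fst
    have hP : HasFDerivAt (fun w : Cn n × (Fin 1 → ℂ) => w.2 0 * (f.Φ a ∘ e.symm) w.1 k)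
        _ (e x, η) := hA.mul hB
    have := hc k
    change fderiv ℂ (fun w : Cn n × (Fin 1 → ℂ) => w.2 0 * (f.Φ a ∘ e.symm) w.1 k) (e x, η) (ξ, ν)
      = c * (η 0 * f.Φ a x k) at this
    rw [hP.fderiv] at this
    simp [e.left_inv (mem_chart_source (Cn n) x)] at this
    simp only [Pi.smul_apply, smul_eq_mul]
    have hne := h0 hη
    field_simp
    linear_combination this

end Vale.Agent.P296.Proj
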