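import Vale.Agent.P296.Proj.Model
import Vale.Agent.P296.Main

/-!
# The surface of the counterexample is projective
-/

noncomputable section

namespace Vale.Agent.P296.Proj

open Complex Model

lemma kap_ne_zero : kap ≠ 0 := by
  unfold kap
  refine neg_ne_zero.2 (mul_ne_zero (mul_ne_zero (by norm_num) ?_) I_ne_zero)
  exact_mod_cast Real.pi_ne_zero

/-- The target of the assembly: an ample line bundle on the surface. -/
theorem projective : Assembly.Projective := fun τ hτ q hq => by
  have hq' : (q : ℂ) ≠ 0 := Nat.cast_ne_zero.2 hq.ne'
  refine surf_exists_ample _ (by simpa using mul_ne_zero hq' kap_ne_zero) ?_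
  simpa using mul_pos (Nat.cast_pos (α := ℝ)|>.2 hq) hτ

end Vale.Agent.P296.Proj
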