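import Vale.Agent.P296.Proj.Ruled
import Vale.Agent.P296.Model.Surface

/-!
# The model surface is projective

In the chart `(z, t)` the homogeneous lift is `(-t / α, 1)`, in the chart `(z, s)` it is `(-1 / α, s)`.
-/

noncomputable section

namespace Vale.Agent.P296.Proj

open scoped Manifold ContDiff Topology
open Filter Vale.Agent.P296.Ruled

/-- The homogeneous fibre coordinates. -/
def hom (α : ℂ) : Bool → ℂ → ℂ × ℂ
  | false => fun w => (-w / α, 1)
  | true => fun w => (-1 / α, w)

variable {D : ModelData}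

lemma hom_ne {α : ℂ} (hα : α ≠ 0) (b : Bool) (w : ℂ) : hom α b w ≠ 0 := by
  cases b
  · exact fun h => one_ne_zero (congrArg Prod.snd h : (1 : ℂ) = 0)
  · intro h
    have : (-1 : ℂ) / α = 0 := congrArg Prod.fst h
    simp [hα] at this

lemma hom_step {α : ℂ} (hα : α ≠ 0) (k : ℤ) {a b : Bool} {w : ℂ}
    (h : Surf.stepOK ((k : ℂ) * α) a b w) :
    ∃ s : ℂ, hom α b (Surf.step ((k : ℂ) * α) a b w) = s • act k (hom α a w) := by
  cases a <;> cases b <;> simp only [Surf.stepOK] at h
  · refine ⟨1, Prod.ext ?_ ?_⟩ <;> simp [hom, act, Surf.step]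
    field_simp
    ring
  · refine ⟨(w + k * α)⁻¹, Prod.ext ?_ ?_⟩ <;> simp [hom, act, Surf.step]
    generalize hR : w + k * α = R at h ⊢
    field_simp
    linear_combination hR
  · refine ⟨w⁻¹, Prod.ext ?_ ?_⟩ <;> simp [hom, act, Surf.step]
    · field_simp
      ring
    · field_simp
  · refine ⟨(1 + k * α * w)⁻¹, Prod.ext ?_ ?_⟩ <;> simp [hom, act, Surf.step]
    · generalize hR : 1 + k * α * w = R at h ⊢
      field_simp
      linear_combination hR
    · rw [div_eq_inv_mul]

lemma hom_infty {c d : Fin 2} {x : Surf D} (hp : x.2.2 = OnePoint.infty) :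
    hom D.α true (Surf.chart (c, d, true) x 1) = (-1 / D.α, 0) := by
  rw [Surf.chart_one_infty hp]; rfl

/-- At a finite point the lift is a multiple of `(-t / α, 1)`. -/
lemma hom_finite {i : Surf.Idx} {x : Surf D} (hi : x ∈ (Surf.chart i).source) {p : ℂ}
    (hp : x.2.2 = (p : OnePoint ℂ)) :
    ∃ s : ℂ, s ≠ 0 ∧ hom D.α i.2.2 (Surf.chart i x 1)
      = (s * (-(Surf.tOf i x p) / D.α), s) := by
  obtain ⟨c, d, _ | _⟩ := i
  · exact ⟨1, one_ne_zero, by rw [Surf.chart_one_false hp]; simp [hom]⟩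
  · obtain ⟨hne, he⟩ := Surf.chart_one_true hp hi
    refine ⟨_, inv_ne_zero hne, ?_⟩
    rw [he]
    simp only [hom, Prod.mk.injEq, and_true]
    field_simp

lemma eq_of_lift {c c' : Fin 2} {u u' : UnitAddCircle} (h : u ∈ (Surf.liftR c).target)
    (h' : u' ∈ (Surf.liftR c').target) {n : ℤ}
    (e : (Surf.liftR c').symm u' = (Surf.liftR c).symm u + n) : u = u' := by
  have e1 : (((Surf.liftR c).symm u : ℝ) : UnitAddCircle) = u := (Surf.liftR c).right_inv h
  have e2 : (((Surf.liftR c').symm u' : ℝ) : UnitAddCircle) = u' := (Surf.liftR c').right_inv h'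
  rw [← e1, ← e2, e]
  refine ((QuotientAddGroup.eq_iff_sub_mem).2 ?_).symm
  exact AddSubgroup.mem_zmultiples_iff.2 ⟨n, by simp⟩

lemma base_eq {i j : Surf.Idx} {x y : Surf D} {m l : ℤ}
    (h : Surf.chart j y 0 = Surf.chart i x 0 + m + l * D.τ) :
    Surf.la j y = Surf.la i x + m ∧ Surf.lb j y = Surf.lb i x + l := by
  rw [Surf.chart_zero, Surf.chart_zero, show Surf.zOf D (Surf.la i x) (Surf.lb i x) + (m : ℂ)
      + (l : ℂ) * D.τ = Surf.zOf D (Surf.la i x + m) (Surf.lb i x + l) by
    simp only [Surf.zOf]; push_cast; ring] at h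
  have h1 := congrArg Complex.re h
  have h2 := congrArg Complex.im h
  rw [Surf.re_zOf, Surf.re_zOf] at h1
  rw [Surf.im_zOf, Surf.im_zOf] at h2
  have hb := mul_right_cancel₀ D.hτ h2
  rw [hb] at h1
  exact ⟨add_right_cancel h1, hb⟩

lemma eq_of_coords (hα : D.α ≠ 0) {i j : Surf.Idx} {x y : Surf D}
    (hx : x ∈ (Surf.chart i).source) (hy : y ∈ (Surf.chart j).source) {m l : ℤ} {s : ℂ}
    (hz : Surf.chart j y 0 = Surf.chart i x 0 + m + l * D.τ)
    (hu : hom D.α j.2.2 (Surf.chart j y 1) = s • act l (hom D.α i.2.2 (Surf.chart i x 1))) :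
    x = y := by
  obtain ⟨ha, hb⟩ := base_eq hz
  have hu2 := congrArg Prod.snd hu
  have hu1 := congrArg Prod.fst hu
  refine Prod.ext (eq_of_lift (Surf.mem_lifts hx).1 (Surf.mem_lifts hy).1 ha)
    (Prod.ext (eq_of_lift (Surf.mem_lifts hx).2.1 (Surf.mem_lifts hy).2.1 hb) ?_)
  rcases hp : x.2.2 with _ | p <;> rcases hq : y.2.2 with _ | r
  · rfl
  · exfalso
    obtain ⟨c, d, ki⟩ := i
    obtain rfl : ki = true := Surf.kind_of_infty hp hx
    obtain ⟨t, ht, e⟩ := hom_finite hy (p := r) hq
    rw [hom_infty hp, e] at hu2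
    simp [act] at hu2
    exact ht hu2
  · exfalso
    obtain ⟨c, d, kj⟩ := j
    obtain rfl : kj = true := Surf.kind_of_infty hq hy
    obtain ⟨t, ht, e⟩ := hom_finite hx (p := p) hp
    rw [hom_infty hq, e] at hu2
    rw [hom_infty hq, e] at hu1
    simp [act, ht] at hu2
    simp [act, hu2, hα] at hu1
  · obtain ⟨t, ht, e⟩ := hom_finite hx (p := p) hp
    obtain ⟨t', ht', e'⟩ := hom_finite hy (p := r) hq
    rw [e, e'] at hu1 hu2
    simp only [act, Prod.smul_mk, smul_eq_mul] at hu1 hu2
    have h3 : t' * (-(Surf.tOf j y r) / D.α) = t' * ((-(Surf.tOf i x p) / D.α) - (l : ℂ)) := by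
      rw [hu1, hu2]; ring
    have h4 := mul_left_cancel₀ ht' h3
    simp only [Surf.tOf, hb] at h4
    push_cast at h4
    field_simp at h4
    have : p = r := by linear_combination h4
    rw [this]

/-- The chart coordinates as a ruled lift. -/
def modelLift (D : ModelData) (hα : D.α ≠ 0) : RuledLift (n := 2) (Surf D) D.τ where
  ι := Surf.Idx
  U i := (Surf.chart i).source
  isOpen_U i := (Surf.chart i).open_source
  indexAt := Surf.idxAt
  mem_at := Surf.mem_idxAt
  z i x := Surf.chart i x 0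
  u i x := hom D.α i.2.2 (Surf.chart i x 1)
  hol_z i := by
    have hg : ContDiff ℂ ω fun w : Cn 2 => w 0 := by fun_prop
    exact hg.contMDiff.comp_contMDiffOn
      (contMDiffOn_of_mem_maximalAtlas (IsManifold.subset_maximalAtlas ⟨i, rfl⟩))
  hol_u i := by
    have hg : ContDiff ℂ ω fun w : Cn 2 => hom D.α i.2.2 (w 1) := by
      rcases i.2.2 <;> simp only [hom] <;> fun_prop
    exact hg.contMDiff.comp_contMDiffOn
      (contMDiffOn_of_mem_maximalAtlas (IsManifold.subset_maximalAtlas ⟨i, rfl⟩))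
  u_ne i x _ := hom_ne hα _ _
  deck a b x hx := by
    obtain ⟨he, hok⟩ := Surf.chart_transition hx.1 hx.2
    obtain ⟨s, hs⟩ := hom_step hα (Surf.kk a b x) hok
    refine ⟨Surf.mm a b x, Surf.kk a b x, s, by rw [he]; simp, ?_⟩
    rw [he]
    simpa using hs
  inj a b x hx y hy m l s hz hu := eq_of_coords hα hx hy hz hu
  imm x ξ t h0 h1 := by
    set a := Surf.idxAt x
    have hx : x ∈ (Surf.chart (D := D) a).source := Surf.mem_idxAt x
    set e := chartAt (Cn 2) x with he
    set c := Surf.chart (D := D) a with hc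
    have hxe : x ∈ e.source := mem_chart_source _ x
    have hex : e.symm (e x) = x := e.left_inv hxe
    have hce : ContDiffAt ℂ ω (c ∘ e.symm) (e x) := by
      have h : ContMDiffOn 𝓘(ℂ, Cn 2) 𝓘(ℂ, Cn 2) ω c c.source :=
        contMDiffOn_of_mem_maximalAtlas (IsManifold.subset_maximalAtlas ⟨a, rfl⟩)
      have h2 := contMDiffAt_iff_contDiffAt.1 ((h.contMDiffAt (x := e.symm (e x))
        (c.open_source.mem_nhds (by rw [hex]; exact hx))).comp (e x)
          (contMDiffOn_chart_symm.contMDiffAt (e.open_target.mem_nhds (e.map_source hxe))))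
      exact h2
    have hec : ContDiffAt ℂ ω (e ∘ c.symm) (c x) := by
      have h : ContMDiffOn 𝓘(ℂ, Cn 2) 𝓘(ℂ, Cn 2) ω c.symm c.target :=
        contMDiffOn_symm_of_mem_maximalAtlas (IsManifold.subset_maximalAtlas ⟨a, rfl⟩)
      have h2 := contMDiffAt_iff_contDiffAt.1 ((contMDiffAt_of_mem_maximalAtlas
        (IsManifold.chart_mem_maximalAtlas x) (x := c.symm (c x))
          (by rw [c.left_inv hx]; exact hxe)).comp (c x)
          (h.contMDiffAt (c.open_target.mem_nhds (c.map_source hx))))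
      exact h2
    have hev : (e ∘ c.symm) ∘ (c ∘ e.symm) =ᶠ[𝓝 (e x)] id := by
      have h3 : Tendsto e.symm (𝓝 (e x)) (𝓝 x) := by
        simpa [hex] using (e.continuousAt_symm (e.map_source hxe)).tendsto
      filter_upwards [e.open_target.mem_nhds (e.map_source hxe),
        h3.eventually (c.open_source.mem_nhds hx)] with w hw hw'
      simp [c.left_inv hw', e.right_inv hw]
    have hF : HasFDerivAt (c ∘ e.symm) (fderiv ℂ (c ∘ e.symm) (e x)) (e x) :=
      (hce.differentiableAt (by simp)).hasFDerivAt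
    have hG : HasFDerivAt (e ∘ c.symm) (fderiv ℂ (e ∘ c.symm) (c x)) ((c ∘ e.symm) (e x)) := by
      simpa [hex] using (hec.differentiableAt (by simp)).hasFDerivAt
    have hid := ((hG.comp (e x) hF).congr_of_eventuallyEq hev.symm).unique (hasFDerivAt_id (e x))
    set d := fderiv ℂ (c ∘ e.symm) (e x) ξ with hd
    suffices hd0 : d = 0 by
      have := congrArg (fun L : Cn 2 →L[ℂ] Cn 2 => L ξ) hid
      simp only [ContinuousLinearMap.comp_apply, ← hd, hd0, map_zero] at this
      exact this.symm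
    have hP : ∀ k : Fin 2, HasFDerivAt (fun w => (c ∘ e.symm) w k)
        ((PiLp.proj 2 (fun _ : Fin 2 => ℂ) k).comp (fderiv ℂ (c ∘ e.symm) (e x))) (e x) :=
      fun k => (PiLp.proj 2 (fun _ : Fin 2 => ℂ) k : Cn 2 →L[ℂ] ℂ).hasFDerivAt.comp (e x) hF
    have hz' : d 0 = 0 := by
      rw [show (fun x => c x 0) ∘ e.symm = fun w => (c ∘ e.symm) w 0 from rfl,
        (hP 0).fderiv] at h0
      exact h0
    have hs' : d 1 = 0 := by
      rw [show (fun x => hom D.α a.2.2 (c x 1)) ∘ e.symm
        = fun w => hom D.α a.2.2 ((c ∘ e.symm) w 1) from rfl] at h1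
      rcases hk : a.2.2 <;> rw [hk] at h1
      · have hu : HasFDerivAt (fun w => hom D.α false ((c ∘ e.symm) w 1)) _ (e x) :=
          ((((hP 1).fun_neg).const_mul D.α⁻¹).prodMk (hasFDerivAt_const (1 : ℂ) (e x))).congr_of_eventuallyEq
            (Eventually.of_forall fun w => by simp [hom, div_eq_inv_mul])
        rw [hu.fderiv] at h1
        have h2 := congrArg Prod.snd h1
        have h3 := congrArg Prod.fst h1
        simp [hom] at h2
        simp [hom, ← h2, hα] at h3
        exact h3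
      · have hu : HasFDerivAt (fun w => hom D.α true ((c ∘ e.symm) w 1)) _ (e x) :=
          ((hasFDerivAt_const ((-1 : ℂ) / D.α) (e x)).prodMk (hP 1)).congr_of_eventuallyEq
            (Eventually.of_forall fun w => by simp [hom])
        rw [hu.fderiv] at h1
        have h2 := congrArg Prod.fst h1
        have h3 := congrArg Prod.snd h1
        simp [hom, hα] at h2
        simp [hom, h2] at h3
        exact h3
    ext k
    fin_cases k
    · exact hz'
    · exact hs'

/-- The model surface carries an ample line bundle. -/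
theorem surf_exists_ample (D : ModelData) (hα : D.α ≠ 0) (hτ : 0 < D.τ.im) :
    ∃ B : HolBundle 2 1 (Surf D), Ample B :=
  (modelLift D hα).exists_ample hτ

end Vale.Agent.P296.Proj
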