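import Vale.Agent.P296.Proj.FromMap
import Vale.Agent.P296.Ruled.Embedding

/-!
# The ruled surface carries an ample line bundle

A manifold with local coordinates `(z, u)` in `ℂ × (ℂ² minus 0)`, related by deck translations and
scaling, separating points and immersive modulo scaling, carries an ample line bundle: the theta
sections of degree three are holomorphic tuples which embed it in projective space.
-/

noncomputable section
namespace Vale.Agent.P296.Proj
open scoped Manifold ContDiff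
open Vale.Agent.P296.Theta (sections)
open Vale.Agent.P296.Ruled

variable {n : ℕ} (X : Type) [TopologicalSpace X] [ChartedSpace (Cn n) X]

/-- Homogeneous lifts of local coordinates of a ruled surface over the torus of periods `1`, `τ`. -/
structure RuledLift (τ : ℂ) where
  ι : Type
  U : ι → Set X
  isOpen_U : ∀ a, IsOpen (U a)
  indexAt : X → ι
  mem_at : ∀ x, x ∈ U (indexAt x)
  z : ι → X → ℂ
  u : ι → X → ℂ × ℂ
  hol_z : ∀ a, ContMDiffOn 𝓘(ℂ, Cn n) 𝓘(ℂ, ℂ) ω (z a) (U a)
  hol_u : ∀ a, ContMDiffOn 𝓘(ℂ, Cn n) 𝓘(ℂ, ℂ × ℂ) ω (u a) (U a)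
  u_ne : ∀ a, ∀ x ∈ U a, u a x ≠ 0
  deck : ∀ a b, ∀ x ∈ U a ∩ U b,
    ∃ (m l : ℤ) (s : ℂ), z b x = z a x + m + l * τ ∧ u b x = s • act l (u a x)
  inj : ∀ a b, ∀ x ∈ U a, ∀ y ∈ U b, ∀ (m l : ℤ) (s : ℂ),
    z b y = z a x + m + l * τ → u b y = s • act l (u a x) → x = y
  imm : ∀ x, ∀ (ξ : Cn n) (t : ℂ),
    fderiv ℂ (z (indexAt x) ∘ (chartAt (Cn n) x).symm) (chartAt (Cn n) x x) ξ = 0 →
      fderiv ℂ (u (indexAt x) ∘ (chartAt (Cn n) x).symm) (chartAt (Cn n) x x) ξ
        = t • u (indexAt x) x → ξ = 0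

variable {X} {τ : ℂ}

/-- A ruled surface over a torus carries an ample line bundle. -/
theorem RuledLift.exists_ample [IsManifold 𝓘(ℂ, Cn n) ω X] (L : RuledLift (n := n) X τ)
    (hτ : 0 < τ.im) : ∃ B : HolBundle n 1 X, Ample B := by
  obtain ⟨N, F, hF, hne, hsep, htan⟩ := exists_ruled_embedding (c := 1) hτ one_ne_zero
  let idx : Fin (N * 2) → Fin N × Fin 2 := finProdFinEquiv.symm
  let G : ℂ × (ℂ × ℂ) → Fin (N * 2) → ℂ := fun p k => sect (F (idx k).1) (idx k).2 p.1 p.2
  have hG : Differentiable ℂ G := differentiable_pi.2 fun k => differentiable_sect (hF _).1 _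
  have hidx : ∀ i j, idx (finProdFinEquiv (i, j)) = (i, j) := fun i j => Equiv.symm_apply_apply _ _
  have hGi : ∀ i j p, G p (finProdFinEquiv (i, j)) = sect (F i) j p.1 p.2 := fun i j p => by
    simp only [G, hidx]
  have hG' : ContMDiff 𝓘(ℂ, ℂ × (ℂ × ℂ)) 𝓘(ℂ, Fin (N * 2) → ℂ) ω G := by
    rw [contMDiff_iff_contDiff]
    refine contDiff_pi.2 fun k => ?_
    have hd : ContDiff ℂ ω (deriv (F (idx k).1)) :=
      Differentiable.contDiff ((hF (idx k).1).1.contDiff (n := 2)).differentiable_deriv_two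
    have hf : ContDiff ℂ ω (F (idx k).1) := (hF _).1.contDiff
    simp only [G, sect]
    split_ifs <;> fun_prop
  let f : ProjMap (n := n) X (N * 2) :=
    { ι := L.ι
      U := L.U
      isOpen_U := L.isOpen_U
      indexAt := L.indexAt
      mem_at := L.mem_at
      Φ := fun a x => G (L.z a x, L.u a x)
      hol := fun a => hG'.comp_contMDiffOn ((L.hol_z a).prodMk_space (L.hol_u a))
      ne_zero := fun a x hx h => by
        obtain ⟨i, j, hij⟩ := hne (L.z a x) _ (L.u_ne a x hx)
        exact hij ((hGi i j (L.z a x, L.u a x)).symm.trans (congrFun h _))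
      prop := fun a b x hx => by
        obtain ⟨m, l, s, hz, hu⟩ := L.deck a b x hx
        refine ⟨s * mult τ 1 l (L.z a x), funext fun k => ?_⟩
        simp only [G, Pi.smul_apply, smul_eq_mul, hz, hu, sect_smul,
          sect_translate one_ne_zero (hF (idx k).1), mul_assoc] }
  refine ⟨f.bundle, f.ample (fun a b x hx y hy t ht => ?_) (f.imm_of_indexAt fun x ξ t ht => ?_)⟩
  · obtain ⟨m, l, hz, s, hs⟩ := hsep (L.z a x) (L.z b y) _ _ (L.u_ne a x hx) (L.u_ne b y hy) t
      fun i j => by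
        have h1 := congrFun ht (finProdFinEquiv (i, j))
        simp only [f, Pi.smul_apply, smul_eq_mul, hGi] at h1
        exact h1
    exact L.inj a b x hx y hy m l s hz hs
  · set a := L.indexAt x
    have hx : x ∈ L.U a := L.mem_at x
    set e := chartAt (Cn n) x
    have hy : e.symm (e x) = x := e.left_inv (mem_chart_source _ x)
    have hmem : e.target ∩ e.symm ⁻¹' L.U a ∈ nhds (e x) := by
      refine (e.isOpen_inter_preimage_symm (L.isOpen_U a)).mem_nhds
        ⟨e.map_source (mem_chart_source _ x), ?_⟩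
      rwa [Set.mem_preimage, hy]
    have hd : ∀ {E : Type} [NormedAddCommGroup E] [NormedSpace ℂ E] {φ : X → E},
        ContMDiffOn 𝓘(ℂ, Cn n) 𝓘(ℂ, E) ω φ (L.U a) → DifferentiableAt ℂ (φ ∘ e.symm) (e x) :=
      fun hφ => ((contMDiffOn_iff_contDiffOn.1 (hφ.comp (contMDiffOn_chart_symm.mono
        Set.inter_subset_left) Set.inter_subset_right)).differentiableOn (by simp)).differentiableAt
          hmem
    have hpair := (hd (L.hol_z a)).hasFDerivAt.prodMk (hd (L.hol_u a)).hasFDerivAt
    have hcomp : HasFDerivAt (f.Φ a ∘ e.symm) _ (e x) :=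
      ((hG _).hasFDerivAt).comp (e x) hpair
    rw [hcomp.fderiv] at ht
    obtain ⟨hξ, s, hs⟩ := htan (L.z a x) (L.u a x) (L.u_ne a x hx)
      (fderiv ℂ (L.z a ∘ e.symm) (e x) ξ) (fderiv ℂ (L.u a ∘ e.symm) (e x) ξ) t fun i j => by
        have h1 := congrFun ht (finProdFinEquiv (i, j))
        have hk : ∀ p v, fderiv ℂ G p v (finProdFinEquiv (i, j)) =
            fderiv ℂ (fun q : ℂ × (ℂ × ℂ) => sect (F i) j q.1 q.2) p v := fun p v => by
          have h2 := hasFDerivAt_pi'.1 (hG p).hasFDerivAt (finProdFinEquiv (i, j))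
          simp only [hGi] at h2
          rw [h2.fderiv]
          rfl
        simp only [ContinuousLinearMap.comp_apply, hy, f, hk,
          ContinuousLinearMap.prod_apply, Pi.smul_apply, smul_eq_mul, hGi] at h1
        exact h1
    exact L.imm x ξ s hξ hs

end Vale.Agent.P296.Proj
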